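import Vale.Agent.P352X.R.CONK.Spec
import Vale.Agent.P352X.R.CONT
import Vale.Agent.P352X.Api2c

/-!
# P352X, row CK.ab: the profiles
-/

set_option linter.all false

open MeasureTheory Filter Topology Set
open scoped SchwartzMap ComplexConjugate ENNReal ContDiff

namespace Vale.Agent.P352X.CK.Ab

open Vale.Agent.P352.H755 (Tst)
open Cont (stp stp_lo smooth_stp deriv_stp bd_stp)

noncomputable section

variable {θ θ1 g : ℝ → ℝ} {s s' δ R M : ℝ}

lemma n2_nonneg {α : Type*} [MeasureSpace α] (f : α → ℂ) : 0 ≤ n2 f := Real.sqrt_nonneg _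

lemma n2_le (hR : 0 ≤ R) (h : ∀ t, |t| ≤ R → |g t| ≤ M) (h0 : ∀ t, R < |t| → g t = 0) :
    n2 (cx g) ≤ Real.sqrt (2 * R * M ^ 2) := by
  refine Real.sqrt_le_sqrt ((integral_mono_of_nonneg (g := (Icc (-R) R).indicator fun _ => M ^ 2)
    (.of_forall fun t => by positivity) ((integrable_indicator_iff measurableSet_Icc).2
      (integrableOn_const (by simp))) (.of_forall fun t => ?_)).trans_eq ?_)
  · simp only [cx, Complex.norm_real, Real.norm_eq_abs]
    by_cases k : t ∈ Icc (-R) R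
    · rw [indicator_of_mem k]
      exact pow_le_pow_left₀ (abs_nonneg _) (h t (abs_le.2 k)) 2
    · rw [indicator_of_notMem k, h0 t (not_le.1 fun j => k (abs_le.1 j))]
      simp
  · rw [integral_indicator measurableSet_Icc, setIntegral_const, smul_eq_mul,
      Real.volume_real_Icc_of_le (by linarith)]
    ring

lemma n2_dil (hs : 0 < s) (g : ℝ → ℝ) : n2 (cx (dil s g)) = Real.sqrt s * n2 (cx g) := by
  rw [n2, n2, ← Real.sqrt_mul hs.le, ← Ap.integral_dil hs]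
  rfl

/-- the data of the step function -/
structure St (θ : ℝ → ℝ) (R M : ℝ) : Prop where
  one : 1 ≤ R
  hi : ∀ t, R ≤ t → stp θ t = 1
  der : ∀ t, R ≤ |t| → deriv (stp θ) t = 0
  b0 : ∀ t, |stp θ t| ≤ M
  b1 : ∀ t, |deriv (stp θ) t| ≤ M
  b2 : ∀ t, |t| * |deriv (stp θ) t| ≤ M

lemma rad (h : Tst g) : ∃ R, 1 ≤ R ∧ ∀ t, R ≤ |t| → g t = 0 ∧ deriv g t = 0 := by
  obtain ⟨R, a, b⟩ := Ap.ex_Icc h
  have : ∀ t, R + 1 ≤ |t| → t ∉ tsupport g := fun t k j => by linarith [abs_le.2 (b j)]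
  exact ⟨R + 1, by linarith, fun t k => ⟨image_eq_zero_of_notMem_tsupport (this t k),
    image_eq_zero_of_notMem_tsupport fun j => this t k (tsupport_deriv_subset j)⟩⟩

lemma ex_st (h : Bump θ) : ∃ R M, St θ R M := by
  obtain ⟨R, a, b⟩ := rad h.1
  obtain ⟨A, B, c, d⟩ := bd_stp h
  have e : ∀ t, R ≤ |t| → deriv (stp θ) t = 0 := fun t k => by simp [deriv_stp h, (b t k).2]
  have A0 := (abs_nonneg _).trans (c 0)
  have B0 := (abs_nonneg _).trans (d 0)
  refine ⟨R, A + R * B, a, fun t k => ?_, e, fun t => ?_, fun t => ?_, fun t => ?_⟩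
  · rw [stp, if_pos (by linarith), (b t (k.trans (le_abs_self t))).1, sub_zero]
  · nlinarith [c t]
  · nlinarith [d t]
  · rcases le_total R |t| with k | k
    · rw [e t k, abs_zero, mul_zero]
      positivity
    · linarith [mul_le_mul k (d t) (abs_nonneg _) (by linarith)]

/-- differences of steps -/
def om (θ : ℝ → ℝ) (s s' t : ℝ) : ℝ := stp θ (t / s) - stp θ (t / s')

lemma d0_om (h : Bump θ) (hs : 0 < s) (hs' : 0 < s') : D0 (om θ s s') := by
  obtain ⟨R, M, k⟩ := ex_st h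
  have lo : ∀ t, t ≤ min s s' → om θ s s' t = 0 := fun t j => by
    rw [om, stp_lo h ((div_le_one hs).2 (j.trans (min_le_left _ _))),
      stp_lo h ((div_le_one hs').2 (j.trans (min_le_right _ _))), sub_self]
  refine ⟨Ap.cs_of ((Ap.smooth_dil (smooth_stp h) s).sub (Ap.smooth_dil (smooth_stp h) s'))
    (isCompact_Icc (a := min s s') (b := R * (s + s'))) fun t j => ?_, fun j => ?_⟩
  · rcases not_and_or.1 j with j | j
    · exact lo t (not_le.1 j).le
    · have := k.one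
      have := not_le.1 j
      change om θ s s' t = 0
      rw [om, k.hi _ ((le_div_iff₀ hs).2 (by nlinarith)), k.hi _ ((le_div_iff₀ hs').2
        (by nlinarith)), sub_self]
  · exact (lt_min hs hs').not_ge (Ap.tsupp_sub (K := Ici (min s s')) isClosed_Ici
      (fun t i => le_of_not_ge fun j => i (lo t j)) j)

lemma dil_om (θ : ℝ → ℝ) (s : ℝ) : dil s (om θ 1 4) = om θ s (4 * s) := by
  funext t
  simp only [dil, om, div_one, div_div, mul_comm]

/-- the telescoping sum -/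
lemma tele (h : Bump θ) {Λ : (ℝ → ℝ) → ℂ} {B : ℝ}
    (ha : ∀ φ φ', Tst φ → Tst φ' → Λ (fun t => φ t + φ' t) = Λ φ + Λ φ')
    (hb : ∀ s, 0 < s → ‖Λ (dil s (om θ 1 4))‖ ≤ B * Real.sqrt s) (hδ : 0 < δ) (N : ℕ) :
    ‖Λ (om θ δ (4 ^ N * δ))‖ ≤ B * Real.sqrt (4 ^ N * δ) := by
  induction N with
  | zero =>
    have e : om θ δ (4 ^ 0 * δ) = fun _ => 0 := by
      funext t
      simp [om]
    have z := ha _ _ Ap.cs_zero Ap.cs_zero
    simp only [add_zero, left_eq_add] at z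
    rw [e, z, norm_zero, pow_zero, one_mul]
    exact (norm_nonneg _).trans (hb δ hδ)
  | succ N ih =>
    have p : 0 < 4 ^ N * δ := by positivity
    have e : om θ δ (4 ^ (N + 1) * δ) = fun t => om θ δ (4 ^ N * δ) t +
        dil (4 ^ N * δ) (om θ 1 4) t := by
      funext t
      rw [dil_om, om, om, om, pow_succ', mul_assoc, sub_add_sub_cancel]
    rw [e, ha _ _ (d0_om h hδ p).1 (Ap.tst_dil (d0_om h one_pos four_pos).1 p.ne'), pow_succ',
      mul_assoc, Real.sqrt_mul zero_le_four, show Real.sqrt 4 = 2 by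
        rw [show (4 : ℝ) = 2 ^ 2 by norm_num, Real.sqrt_sq zero_le_two]]
    linarith [norm_add_le (Λ (om θ δ (4 ^ N * δ))) (Λ (dil (4 ^ N * δ) (om θ 1 4))), hb _ p]

lemma ex_pow (hδ : 0 < δ) (h1 : δ ≤ 1) : ∃ N : ℕ, 4⁻¹ ≤ 4 ^ N * δ ∧ 4 ^ N * δ ≤ 1 := by
  obtain ⟨N, a, b⟩ := exists_nat_pow_near (one_le_inv₀ hδ |>.2 h1) (by norm_num : (1 : ℝ) < 4)
  rw [inv_eq_one_div, le_div_iff₀ hδ] at a
  rw [inv_eq_one_div, div_lt_iff₀ hδ, pow_succ] at b
  exact ⟨N, by linarith, a⟩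

lemma der_stp (h : Bump θ) (s t : ℝ) :
    HasDerivAt (fun t => stp θ (t / s)) (deriv (stp θ) (t / s) / s) t := by
  rw [← Ap.deriv_dil]
  exact ((Ap.smooth_dil (smooth_stp h) s).differentiable (by simp) t).hasDerivAt

lemma St.far (k : St θ R M) (hs : 0 < s) (h1 : s ≤ 1) {t : ℝ} (ht : R ≤ |t|) :
    deriv (stp θ) (t / s) = 0 := k.der _ (by
  rw [abs_div, abs_of_pos hs, le_div_iff₀ hs]
  nlinarith [k.one])

lemma St.eul (k : St θ R M) (hs : 0 < s) (t : ℝ) : |t| * |deriv (stp θ) (t / s) / s| ≤ M := by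
  have := k.b2 (t / s)
  rw [abs_div, abs_of_pos hs] at this
  rw [abs_div, abs_of_pos hs]
  exact le_of_eq_of_le (by ring) this

/-- the remainder -/
def rem (θ1 θ : ℝ → ℝ) (δ s t : ℝ) : ℝ := abv θ1 θ δ t - θ1 0 * om θ δ s t

lemma tst_rem (h1 : Tst θ1) (h : Bump θ) (hδ : 0 < δ) (hs : 0 < s) : Tst (rem θ1 θ δ s) :=
  Ap.cs_sub (Ap.tst_abv h1 h hδ) (Ap.cs_cmul _ (d0_om h hδ hs).1)

lemma der_abv (h1 : Tst θ1) (h : Bump θ) (hδ : 0 < δ) (t : ℝ) : HasDerivAt (abv θ1 θ δ)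
    (deriv θ1 t * stp θ (t / δ) + θ1 t * (deriv (stp θ) (t / δ) / δ)) t := by
  rw [Cont.abv_eq _ _ hδ]
  exact (h1.1.differentiable (by simp) t).hasDerivAt.mul (der_stp h δ t)

/-- uniform bounds -/
theorem bds (h1 : Tst θ1) (h : Bump θ) : ∃ C, 0 ≤ C ∧ ∀ δ, 0 < δ → δ ≤ 1 →
    n2 (cx (deriv fun t => t * abv θ1 θ δ t)) ≤ C ∧
    n2 (cx (deriv fun t => t ^ 2 * abv θ1 θ δ t)) ≤ C ∧
    ∀ s, 4⁻¹ ≤ s → s ≤ 1 → n2 (cx (deriv (rem θ1 θ δ s))) ≤ C := by
  obtain ⟨R0, M, k⟩ := ex_st h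
  obtain ⟨R1, -, r⟩ := rad h1
  obtain ⟨A, A0, a⟩ := Ap.cs_bd0 h1
  obtain ⟨B, B0, b⟩ := Ap.cs_bd0 (Ap.cs_deriv h1)
  simp only [Real.norm_eq_abs] at a b
  have M0 := (abs_nonneg _).trans (k.b0 0)
  obtain ⟨R, R0', p0, p1⟩ : ∃ R, 1 ≤ R ∧ R0 ≤ R ∧ R1 ≤ R :=
    ⟨max R0 R1, k.one.trans (le_max_left _ _), le_max_left _ _, le_max_right _ _⟩
  have lip : ∀ t, |θ1 t - θ1 0| ≤ B * |t| := fun t => by
    simpa using Convex.norm_image_sub_le_of_norm_deriv_le (s := univ) (x := 0) (y := t)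
      (fun x _ => h1.1.differentiable (by simp) x) (fun x _ => b x) convex_univ trivial trivial
  set E := R * (4 * (A * M) + 2 * R * (B * M)) with hE
  have AM := mul_nonneg A0 M0
  have BM := mul_nonneg B0 M0
  refine ⟨Real.sqrt (2 * R * E ^ 2), Real.sqrt_nonneg _, fun δ hδ hδ1 => ?_⟩
  have c0 : ∀ t, |abv θ1 θ δ t| ≤ A * M := fun t => by
    rw [Cont.abv_eq _ _ hδ, abs_mul]
    exact mul_le_mul (a t) (k.b0 _) (abs_nonneg _) A0
  have c1 : ∀ t, |deriv θ1 t * stp θ (t / δ)| ≤ B * M := fun t => by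
    rw [abs_mul]
    exact mul_le_mul (b t) (k.b0 _) (abs_nonneg _) B0
  have c2 : ∀ t, |t| ≤ R → |t * (deriv θ1 t * stp θ (t / δ) + θ1 t * (deriv (stp θ) (t / δ) / δ))| ≤
      R * (B * M) + A * M := fun t j => by
    rw [mul_add, mul_left_comm t (θ1 t)]
    refine (abs_add_le _ _).trans (add_le_add ?_ ?_)
    · rw [abs_mul]
      exact mul_le_mul j (c1 t) (abs_nonneg _) (by linarith)
    · rw [abs_mul, abs_mul]
      exact mul_le_mul (a t) (k.eul hδ t) (by positivity) A0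
  have z0 : ∀ t, R < |t| → abv θ1 θ δ t = 0 := fun t j => by
    rw [Cont.abv_eq _ _ hδ]
    simp [(r t (by linarith)).1]
  have z1 : ∀ t, R < |t| → deriv θ1 t * stp θ (t / δ) + θ1 t * (deriv (stp θ) (t / δ) / δ) = 0 :=
    fun t j => by simp [r t (by linarith)]
  refine ⟨n2_le (by linarith) (fun t j => ?_) fun t j => ?_, n2_le (by linarith) (fun t j => ?_)
    fun t j => ?_, fun s s0 s1 => n2_le (by linarith) (fun t j => ?_) fun t j => ?_⟩
  · rw [((hasDerivAt_id' t).fun_mul (der_abv h1 h hδ t)).deriv, one_mul]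
    refine (abs_add_le _ _).trans ((add_le_add (c0 t) (c2 t j)).trans ?_)
    nlinarith [mul_nonneg (sub_nonneg.2 R0') AM, mul_nonneg (sub_nonneg.2 R0') BM]
  · rw [((hasDerivAt_id' t).fun_mul (der_abv h1 h hδ t)).deriv, z0 t j, z1 t j]
    simp
  · rw [((hasDerivAt_pow 2 t).fun_mul (der_abv h1 h hδ t)).deriv]
    have e : ∀ x y : ℝ, (2 : ℕ) * t ^ (2 - 1) * x + t ^ 2 * y = t * (2 * x + t * y) := fun x y => by
      push_cast
      ring
    rw [e, abs_mul]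
    refine mul_le_mul j ((abs_add_le _ _).trans ?_) (abs_nonneg _) (by linarith)
    rw [abs_mul, abs_two]
    nlinarith [c0 t, c2 t j, mul_nonneg (sub_nonneg.2 R0') BM]
  · rw [((hasDerivAt_pow 2 t).fun_mul (der_abv h1 h hδ t)).deriv, z0 t j, z1 t j]
    simp
  all_goals
    have s2 : 0 < s := by linarith
    rw [show deriv (rem θ1 θ δ s) t = _ from ((der_abv h1 h hδ t).sub
      (((der_stp h δ t).sub (der_stp h s t)).const_mul (θ1 0))).deriv]
  · have e : ∀ x y z : ℝ, x + θ1 t * y - θ1 0 * (y - z) = x + (θ1 t - θ1 0) * y + θ1 0 * z :=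
      fun x y z => by ring
    have d1 : |(θ1 t - θ1 0) * (deriv (stp θ) (t / δ) / δ)| ≤ B * M := by
      rw [abs_mul]
      refine (mul_le_mul_of_nonneg_right (lip t) (abs_nonneg _)).trans ?_
      rw [mul_assoc]
      exact mul_le_mul_of_nonneg_left (k.eul hδ t) B0
    have d2 : |θ1 0 * (deriv (stp θ) (t / s) / s)| ≤ A * (4 * M) := by
      rw [abs_mul, abs_div, abs_of_pos s2]
      refine mul_le_mul (a 0) ((div_le_iff₀ s2).2 ?_) (by positivity) A0
      nlinarith [k.b1 (t / s)]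
    rw [e]
    refine (abs_add_three _ _ _).trans ((add_le_add_three (c1 t) d1 d2).trans ?_)
    nlinarith [mul_nonneg (sub_nonneg.2 R0') AM, mul_nonneg (sub_nonneg.2 R0') BM,
      mul_nonneg (mul_nonneg (sub_nonneg.2 R0') (sub_nonneg.2 R0')) BM]
  · rw [z1 t j, k.far hδ hδ1 (by linarith), k.far s2 s1 (by linarith)]
    simp

end

end Vale.Agent.P352X.CK.Ab
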